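import Vale.Agent.Lib.P047.H2.AllDegrees

namespace Vale.Agent.Lib.P047.H2.H15

open Finset

/-- the level-one sum as a correlation with the balance -/
theorem levelOne_eq {n : ℕ} (F : (Fin n → Bool) → ℝ) :
    ∑ i, fourier F {i} = (∑ x : Fin n → Bool, F x * ((bal x : ℤ) : ℝ)) / 2 ^ n := by
  unfold fourier
  simp only [Finset.prod_singleton, Fintype.card_fin]
  rw [← Finset.sum_div, Finset.sum_comm]
  congr 1
  apply Finset.sum_congr rfl
  intro y _
  rw [← Finset.mul_sum, bal_cast]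

theorem abs_sgn (b : Bool) : |sgn b| = 1 := by
  cases b <;> simp [sgn]

theorem sgn_mul_self (b : Bool) : sgn b * sgn b = 1 := by
  cases b <;> simp [sgn]

/-- The basic inequality: any `h` having the same correlation with `f` as the balance bounds
the level-one sum of `f` by its mean absolute value. -/
theorem levelOne_le_of_corr {n : ℕ} (f : (Fin n → Bool) → Bool) (h : (Fin n → Bool) → ℝ)
    (hh : ∑ x : Fin n → Bool, sgn (f x) * (((bal x : ℤ) : ℝ) - h x) = 0) :
    ∑ i, fourier (fun x => sgn (f x)) {i} ≤ (∑ x : Fin n → Bool, |h x|) / 2 ^ n := by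
  rw [levelOne_eq]
  apply div_le_div_of_nonneg_right _ (by positivity)
  have e : ∑ x : Fin n → Bool, sgn (f x) * ((bal x : ℤ) : ℝ)
      = ∑ x : Fin n → Bool, sgn (f x) * h x := by
    have e2 : ∑ x : Fin n → Bool, sgn (f x) * ((bal x : ℤ) : ℝ)
        - ∑ x : Fin n → Bool, sgn (f x) * h x = 0 := by
      rw [← Finset.sum_sub_distrib, ← hh]
      apply Finset.sum_congr rfl
      intro x _
      ring
    linarith
  rw [e]
  apply Finset.sum_le_sum
  intro x _
  calc sgn (f x) * h x ≤ |sgn (f x) * h x| := le_abs_self _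
    _ = |h x| := by rw [abs_mul, abs_sgn, one_mul]

/-- number of `false` coordinates -/
def nfalse {n : ℕ} (x : Fin n → Bool) : ℕ := ∑ j, (if x j then 0 else 1)

theorem prod_sgn {n : ℕ} (x : Fin n → Bool) : ∏ j, sgn (x j) = (-1 : ℝ) ^ nfalse x := by
  unfold nfalse
  rw [← Finset.prod_pow_eq_pow_sum]
  apply Finset.prod_congr rfl
  intro j _
  cases x j <;> simp [sgn]

theorem bal_eq_nfalse {n : ℕ} (x : Fin n → Bool) : bal x = (n : ℤ) - 2 * (nfalse x : ℤ) := by
  unfold bal nfalse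
  push_cast
  rw [Finset.mul_sum]
  have hn : (n : ℤ) = ∑ _j : Fin n, (1 : ℤ) := by simp
  rw [hn, ← Finset.sum_sub_distrib]
  apply Finset.sum_congr rfl
  intro j _
  cases x j <;> simp

/-- trivial bound: the level-one sum is at most `E|X_1 + ... + X_n|` -/
theorem trivial_bound {n : ℕ} (f : (Fin n → Bool) → Bool) :
    ∑ i, fourier (fun x => sgn (f x)) {i} ≤ (∑ y : Fin n → Bool, |∑ j, sgn (y j)|) / 2 ^ n := by
  have key := levelOne_le_of_corr f (fun x => ((bal x : ℤ) : ℝ)) (by simp)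
  rw [sum_abs_eq_bal]
  exact key

/-- `E|X_1 + ... + X_k|` is nondecreasing in `k` -/
theorem mean_abs_le_succ (k : ℕ) :
    (∑ y : Fin k → Bool, |∑ j, sgn (y j)|) / 2 ^ k
      ≤ (∑ y : Fin (k + 1) → Bool, |∑ j, sgn (y j)|) / 2 ^ (k + 1) := by
  rw [sum_abs_eq_bal, sum_abs_eq_bal, sum_bal_succ k (fun t => |((t : ℤ) : ℝ)|)]
  have hpt : ∀ y : Fin k → Bool,
      2 * |((bal y : ℤ) : ℝ)| ≤ |((bal y + 1 : ℤ) : ℝ)| + |((bal y - 1 : ℤ) : ℝ)| := by
    intro y
    push_cast
    have h1 := abs_add_le (((bal y : ℤ) : ℝ) + 1) (((bal y : ℤ) : ℝ) - 1)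
    rw [show ((bal y : ℤ) : ℝ) + 1 + (((bal y : ℤ) : ℝ) - 1) = 2 * ((bal y : ℤ) : ℝ) by ring,
      abs_mul] at h1
    simpa using h1
  have hs : 2 * ∑ y : Fin k → Bool, |((bal y : ℤ) : ℝ)|
      ≤ ∑ y : Fin k → Bool, (|((bal y + 1 : ℤ) : ℝ)| + |((bal y - 1 : ℤ) : ℝ)|) := by
    rw [Finset.mul_sum]
    exact Finset.sum_le_sum (fun y _ => hpt y)
  have hp : (0 : ℝ) < 2 ^ k := by positivity
  rw [pow_succ, div_le_div_iff₀ hp (by positivity)]
  have := mul_le_mul_of_nonneg_right hs (le_of_lt hp)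
  linarith

theorem mean_abs_mono {k l : ℕ} (h : k ≤ l) :
    (∑ y : Fin k → Bool, |∑ j, sgn (y j)|) / 2 ^ k
      ≤ (∑ y : Fin l → Bool, |∑ j, sgn (y j)|) / 2 ^ l :=
  monotone_nat_of_le_succ
    (f := fun k : ℕ => (∑ y : Fin k → Bool, |∑ j, sgn (y j)|) / 2 ^ k) mean_abs_le_succ h

/-! ### One variable more than the degree (even degree) -/

/-- the nearest multiple of four to an odd integer, in absolute value -/
noncomputable def psiW (t : ℤ) : ℝ :=
  if t % 4 = 1 then |((t : ℤ) : ℝ) - 1| else |((t : ℤ) : ℝ) + 1|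

theorem abs_hW (m k : ℕ) (hm : m = 2 * k) (x : Fin (m + 1) → Bool) :
    |((bal x : ℤ) : ℝ) - (-1 : ℝ) ^ k * ∏ j, sgn (x j)| = psiW (bal x) := by
  rw [prod_sgn, ← pow_add]
  have hb := bal_eq_nfalse x
  unfold psiW
  rcases Nat.even_or_odd (k + nfalse x) with he | ho
  · rw [he.neg_one_pow]
    obtain ⟨r, hr⟩ := he
    have h4 : bal x % 4 = 1 := by
      push_cast at hb
      omega
    rw [if_pos h4]
  · rw [ho.neg_one_pow]
    obtain ⟨r, hr⟩ := ho
    have h4 : ¬ bal x % 4 = 1 := by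
      push_cast at hb
      omega
    rw [if_neg h4]
    congr 1
    ring

theorem psiW_pair (t : ℤ) (ht : t % 2 = 0) :
    psiW (t + 1) + psiW (t - 1) = 2 * |((t : ℤ) : ℝ)| := by
  have hcases : t % 4 = 0 ∨ t % 4 = 2 := by omega
  rcases hcases with h | h
  · have e1 : psiW (t + 1) = |((t : ℤ) : ℝ)| := by
      unfold psiW
      rw [if_pos (by omega : (t + 1) % 4 = 1)]
      push_cast
      congr 1
      ring
    have e2 : psiW (t - 1) = |((t : ℤ) : ℝ)| := by
      unfold psiW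
      rw [if_neg (by omega : ¬ (t - 1) % 4 = 1)]
      push_cast
      congr 1
      ring
    rw [e1, e2]
    ring
  · have e1 : psiW (t + 1) = |((t : ℤ) : ℝ) + 2| := by
      unfold psiW
      rw [if_neg (by omega : ¬ (t + 1) % 4 = 1)]
      push_cast
      congr 1
      ring
    have e2 : psiW (t - 1) = |((t : ℤ) : ℝ) - 2| := by
      unfold psiW
      rw [if_pos (by omega : (t - 1) % 4 = 1)]
      push_cast
      congr 1
      ring
    rw [e1, e2]
    have hc2 : t ≤ -2 ∨ 2 ≤ t := by omega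
    rcases hc2 with h2 | h2
    · have h2' : ((t : ℤ) : ℝ) ≤ -2 := by exact_mod_cast h2
      rw [abs_of_nonpos (by linarith : ((t : ℤ) : ℝ) + 2 ≤ 0),
        abs_of_nonpos (by linarith : ((t : ℤ) : ℝ) - 2 ≤ 0),
        abs_of_nonpos (by linarith : ((t : ℤ) : ℝ) ≤ 0)]
      ring
    · have h2' : (2 : ℝ) ≤ ((t : ℤ) : ℝ) := by exact_mod_cast h2
      rw [abs_of_nonneg (by linarith : 0 ≤ ((t : ℤ) : ℝ) + 2),
        abs_of_nonneg (by linarith : 0 ≤ ((t : ℤ) : ℝ) - 2),
        abs_of_nonneg (by linarith : 0 ≤ ((t : ℤ) : ℝ))]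
      ring

theorem sum_psiW (m : ℕ) (hm : Even m) :
    ∑ w : Fin (m + 1) → Bool, psiW (bal w)
      = 2 * ∑ y : Fin m → Bool, |((bal y : ℤ) : ℝ)| := by
  rw [sum_bal_succ m psiW, Finset.mul_sum]
  apply Finset.sum_congr rfl
  intro y _
  obtain ⟨c, hc⟩ := bal_parity y
  obtain ⟨k, hk⟩ := hm
  exact psiW_pair (bal y) (by omega)

/-- If `f` has `m + 1` variables, `m` even, and its top Fourier coefficient vanishes, then
its level-one sum is at most `E|X_1 + ... + X_m|`. -/
theorem top_vanishing_case (m : ℕ) (hm : Even m) (f : (Fin (m + 1) → Bool) → Bool)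
    (hU : fourier (fun x => sgn (f x)) Finset.univ = 0) :
    ∑ i, fourier (fun x => sgn (f x)) {i}
      ≤ (∑ y : Fin m → Bool, |∑ j, sgn (y j)|) / 2 ^ m := by
  obtain ⟨k, hk⟩ := hm
  have hk2 : m = 2 * k := by omega
  have hcorr : ∑ x : Fin (m + 1) → Bool, sgn (f x) * ∏ j, sgn (x j) = 0 := by
    unfold fourier at hU
    have h2 : (2 : ℝ) ^ Fintype.card (Fin (m + 1)) ≠ 0 := by positivity
    exact (div_eq_zero_iff.mp hU).resolve_right h2
  have key := levelOne_le_of_corr f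
    (fun x => ((bal x : ℤ) : ℝ) - (-1 : ℝ) ^ k * ∏ j, sgn (x j)) (by
      have hx : ∀ x : Fin (m + 1) → Bool,
          sgn (f x) * (((bal x : ℤ) : ℝ) - (((bal x : ℤ) : ℝ) - (-1 : ℝ) ^ k * ∏ j, sgn (x j)))
            = (-1 : ℝ) ^ k * (sgn (f x) * ∏ j, sgn (x j)) := by
        intro x
        ring
      rw [Finset.sum_congr rfl (fun x _ => hx x), ← Finset.mul_sum, hcorr, mul_zero])
  refine le_trans key (le_of_eq ?_)
  rw [Finset.sum_congr rfl (fun x _ => abs_hW m k hk2 x), sum_psiW m ⟨k, hk⟩, sum_abs_eq_bal,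
    pow_succ]
  have h2 : (2 : ℝ) ^ m ≠ 0 := by positivity
  field_simp

/-! ### Two variables more than the degree (even degree) -/

/-- twice the absolute value on multiples of four, zero elsewhere -/
noncomputable def phiA (t : ℤ) : ℝ := if t % 4 = 0 then 2 * |((t : ℤ) : ℝ)| else 0

theorem abs_hA (m k : ℕ) (hm : m = 2 * k) (x : Fin (m + 2) → Bool) :
    |((bal x : ℤ) : ℝ) * (1 - (-1 : ℝ) ^ k * ∏ j, sgn (x j))| = phiA (bal x) := by
  rw [prod_sgn, ← pow_add]
  have hb := bal_eq_nfalse x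
  unfold phiA
  rcases Nat.even_or_odd (k + nfalse x) with he | ho
  · rw [he.neg_one_pow]
    obtain ⟨r, hr⟩ := he
    have h4 : ¬ bal x % 4 = 0 := by
      push_cast at hb
      omega
    rw [if_neg h4]
    simp
  · rw [ho.neg_one_pow]
    obtain ⟨r, hr⟩ := ho
    have h4 : bal x % 4 = 0 := by
      push_cast at hb
      omega
    rw [if_pos h4, show ((bal x : ℤ) : ℝ) * (1 - -1) = 2 * ((bal x : ℤ) : ℝ) by ring, abs_mul]
    norm_num

theorem phiA_triple (t : ℤ) (ht : t % 2 = 0) :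
    phiA (t + 2) + 2 * phiA t + phiA (t - 2) = 4 * |((t : ℤ) : ℝ)| := by
  have hcases : t % 4 = 0 ∨ t % 4 = 2 := by omega
  rcases hcases with h | h
  · have e1 : phiA (t + 2) = 0 := by
      unfold phiA
      rw [if_neg (by omega : ¬ (t + 2) % 4 = 0)]
    have e2 : phiA (t - 2) = 0 := by
      unfold phiA
      rw [if_neg (by omega : ¬ (t - 2) % 4 = 0)]
    have e3 : phiA t = 2 * |((t : ℤ) : ℝ)| := by
      unfold phiA
      rw [if_pos h]
    rw [e1, e2, e3]
    ring
  · have e1 : phiA (t + 2) = 2 * |((t : ℤ) : ℝ) + 2| := by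
      unfold phiA
      rw [if_pos (by omega : (t + 2) % 4 = 0)]
      push_cast
      rfl
    have e2 : phiA (t - 2) = 2 * |((t : ℤ) : ℝ) - 2| := by
      unfold phiA
      rw [if_pos (by omega : (t - 2) % 4 = 0)]
      push_cast
      rfl
    have e3 : phiA t = 0 := by
      unfold phiA
      rw [if_neg (by omega : ¬ t % 4 = 0)]
    rw [e1, e2, e3]
    have hc2 : t ≤ -2 ∨ 2 ≤ t := by omega
    rcases hc2 with h2 | h2
    · have h2' : ((t : ℤ) : ℝ) ≤ -2 := by exact_mod_cast h2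
      rw [abs_of_nonpos (by linarith : ((t : ℤ) : ℝ) + 2 ≤ 0),
        abs_of_nonpos (by linarith : ((t : ℤ) : ℝ) - 2 ≤ 0),
        abs_of_nonpos (by linarith : ((t : ℤ) : ℝ) ≤ 0)]
      ring
    · have h2' : (2 : ℝ) ≤ ((t : ℤ) : ℝ) := by exact_mod_cast h2
      rw [abs_of_nonneg (by linarith : 0 ≤ ((t : ℤ) : ℝ) + 2),
        abs_of_nonneg (by linarith : 0 ≤ ((t : ℤ) : ℝ) - 2),
        abs_of_nonneg (by linarith : 0 ≤ ((t : ℤ) : ℝ))]
      ring

theorem sum_phiA (m : ℕ) (hm : Even m) :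
    ∑ w : Fin (m + 2) → Bool, phiA (bal w)
      = 4 * ∑ y : Fin m → Bool, |((bal y : ℤ) : ℝ)| := by
  rw [sum_bal_two m phiA, Finset.mul_sum]
  apply Finset.sum_congr rfl
  intro y _
  obtain ⟨c, hc⟩ := bal_parity y
  obtain ⟨k, hk⟩ := hm
  exact phiA_triple (bal y) (by omega)

/-- If `f` has `m + 2` variables, `m` even, and all its Fourier coefficients at sets of
size at least `m + 1` vanish, then its level-one sum is at most `E|X_1 + ... + X_m|`. -/
theorem two_more_case (m : ℕ) (hm : Even m) (f : (Fin (m + 2) → Bool) → Bool)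
    (hU : ∀ U : Finset (Fin (m + 2)), m + 1 ≤ U.card → fourier (fun x => sgn (f x)) U = 0) :
    ∑ i, fourier (fun x => sgn (f x)) {i}
      ≤ (∑ y : Fin m → Bool, |∑ j, sgn (y j)|) / 2 ^ m := by
  obtain ⟨k, hk⟩ := hm
  have hk2 : m = 2 * k := by omega
  have hcorr : ∀ i : Fin (m + 2),
      ∑ x : Fin (m + 2) → Bool, sgn (f x) * ∏ j ∈ Finset.univ.erase i, sgn (x j) = 0 := by
    intro i
    have h0 := hU (Finset.univ.erase i) (by
      rw [Finset.card_erase_of_mem (Finset.mem_univ i)]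
      simp)
    unfold fourier at h0
    have h2 : (2 : ℝ) ^ Fintype.card (Fin (m + 2)) ≠ 0 := by positivity
    exact (div_eq_zero_iff.mp h0).resolve_right h2
  have hcorr2 : ∑ x : Fin (m + 2) → Bool,
      sgn (f x) * ((∏ j, sgn (x j)) * ((bal x : ℤ) : ℝ)) = 0 := by
    have hx : ∀ x : Fin (m + 2) → Bool,
        sgn (f x) * ((∏ j, sgn (x j)) * ((bal x : ℤ) : ℝ))
          = ∑ i, sgn (f x) * ∏ j ∈ Finset.univ.erase i, sgn (x j) := by
      intro x
      rw [bal_cast, Finset.mul_sum, Finset.mul_sum]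
      apply Finset.sum_congr rfl
      intro i _
      rw [← Finset.mul_prod_erase Finset.univ (fun j => sgn (x j)) (Finset.mem_univ i)]
      have hs := sgn_mul_self (x i)
      linear_combination (sgn (f x) * ∏ j ∈ Finset.univ.erase i, sgn (x j)) * hs
    rw [Finset.sum_congr rfl (fun x _ => hx x), Finset.sum_comm]
    exact Finset.sum_eq_zero (fun i _ => hcorr i)
  have key := levelOne_le_of_corr f
    (fun x => ((bal x : ℤ) : ℝ) * (1 - (-1 : ℝ) ^ k * ∏ j, sgn (x j))) (by
      have hx : ∀ x : Fin (m + 2) → Bool,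
          sgn (f x) * (((bal x : ℤ) : ℝ)
              - ((bal x : ℤ) : ℝ) * (1 - (-1 : ℝ) ^ k * ∏ j, sgn (x j)))
            = (-1 : ℝ) ^ k * (sgn (f x) * ((∏ j, sgn (x j)) * ((bal x : ℤ) : ℝ))) := by
        intro x
        ring
      rw [Finset.sum_congr rfl (fun x _ => hx x), ← Finset.mul_sum, hcorr2, mul_zero])
  refine le_trans key (le_of_eq ?_)
  rw [Finset.sum_congr rfl (fun x _ => abs_hA m k hk2 x), sum_phiA m ⟨k, hk⟩, sum_abs_eq_bal,
    pow_succ, pow_succ]
  have h2 : (2 : ℝ) ^ m ≠ 0 := by positivity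
  field_simp
  ring

/-! ### The unified statement -/

/-- **O'Donnell's bound for functions of nearly full degree.**  If a Boolean function of `n`
variables has degree at most `d` and `n ≤ d + 2`, then its level-one Fourier sum is at most
`E|X_1 + ... + X_d|`. -/
theorem near_full (n d : ℕ) (f : (Fin n → Bool) → Bool) (hnd : n ≤ d + 2)
    (hdeg : degree (fun x => sgn (f x)) ≤ d) :
    ∑ i, fourier (fun x => sgn (f x)) {i}
      ≤ (∑ y : Fin d → Bool, |∑ j, sgn (y j)|) / 2 ^ d := by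
  have hz : ∀ U : Finset (Fin n), d + 1 ≤ U.card → fourier (fun x => sgn (f x)) U = 0 := by
    intro U hU
    by_contra hne
    have := (degree_le_iff _ d).mp hdeg U hne
    omega
  rcases Nat.lt_or_ge d n with hlt | hge
  · rcases Nat.even_or_odd d with he | ho
    · have hn : n = d + 1 ∨ n = d + 2 := by omega
      rcases hn with rfl | rfl
      · exact top_vanishing_case d he f (hz Finset.univ (by simp))
      · exact two_more_case d he f hz
    · have hn : n = d + 1 ∨ n = d + 1 + 1 := by omega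
      rcases hn with rfl | rfl
      · rw [← abs_mean_succ_of_odd d ho]
        exact trivial_bound f
      · rw [← abs_mean_succ_of_odd d ho]
        exact top_vanishing_case (d + 1) ho.add_one f (hz Finset.univ (by simp))
  · exact le_trans (trivial_bound f) (mean_abs_mono hge)

end Vale.Agent.Lib.P047.H2.H15
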